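import Vale.Agent.Lib.P074b.Main
import Vale.Agent.Lib.P074u.WeightsVar
import Vale.Agent.Lib.P074u.DiscFromWeights
import Vale.Agent.Lib.P074u.ChainD

/-!
# P074: in every dimension `d ≥ 2` the stability exponent is exactly `1/3`, and it is attained

For every `d ≥ 2` the exponent `1/3` is admissible and no larger exponent is: the set of admissible
exponents has the greatest element `1/3`.  In particular `1/2` is not admissible.

Admissibility of `1/3`.
(1) Midpoint Prekopa-Leindler inequality in `ℝ^d` (from the one dimensional Brunn-Minkowski
inequality, by induction on the dimension).
(2) Power diagrams with the same sites and two weight vectors: the midpoints of the two cells of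
index `i` lie in the cell of index `i` for the mean weights.  Prekopa-Leindler on each cell, with a
Gaussian weight and Lipschitz tilts, shows that the first moments of the cells are Lipschitz
functions of the masses of the cells (weighted `ℓ²` norm against the chi-square distance).
(3) Duality in the masses and a telescoping sum along the segment between two families of sites
turn (2) into: the optimal weights, hence the Brenier potentials, of two finitely supported targets
with the same masses differ in `L²`, up to a constant, by at most `C` times the quadratic cost of
moving the sites.
(4) `L²` closeness `ε` of two convex Lipschitz potentials gives `∫ |T - S|² ≤ C ε^{2/3}`.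
(5) A coupling is discretised and the atoms are moved one coordinate at a time.
The upper bound `1/3` comes from an explicit family of targets.
-/

open MeasureTheory ENNReal
open scoped NNReal

namespace Vale.Agent.Results.P074.AAAllDimsOneThird

open Vale.Agent.Lib.P074b

theorem result :
    ∀ d : ℕ, 2 ≤ d →
      IsGreatest {α : ℝ | Admissible d α} (1 / 3) ∧
      sSup {α : ℝ | Admissible d α} = 1 / 3 ∧
      ¬ Admissible d (1 / 2) := by
  intro d hd
  have h3 : Admissible d (1 / 3) :=
    Vale.Agent.Lib.P074u.admissible_third_of_discStab d hd
      (Vale.Agent.Lib.P074u.discStab_of_weightStab d (Vale.Agent.Lib.P074u.weightStab d))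
  have hg : IsGreatest {α : ℝ | Admissible d α} (1 / 3) :=
    ⟨h3, fun α h => admissible_le hd h⟩
  refine ⟨hg, hg.csSup_eq, fun h => ?_⟩
  have := admissible_le hd h
  norm_num at this

end Vale.Agent.Results.P074.AAAllDimsOneThird
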