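import Vale.Agent.Lib.P074b.Main
import Vale.Agent.Lib.P074q.Main
import Vale.Agent.Lib.P074t.Chain

/-!
# P074: in the plane the stability exponent is exactly `1/3`, and it is attained

Dimension two: the exponent `1/3` is admissible, and no larger exponent is, so the set of
admissible exponents has the greatest element `1/3`.  For every `d ≥ 2` the exponent `1/4` is
admissible and no exponent above `1/3` is.

Admissibility of `1/3` for `d = 2`.  (1) Sup-norm stability of potentials: if the atoms of a
finitely supported target are moved along one coordinate axis by at most `δ` (masses kept, the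
other coordinates pairwise distinct), the two piecewise affine Brenier potentials differ, up to a
constant, by at most `δ` times the width of `K`.  This is a two-point maximum principle for
`W(a,b,t) = ∫_a^b (P' - P)(s,t) ds - δ' θ(b-a)`, where `P(s,t) = min_z (φ(s,z) - t z)` is the
Legendre transform in the second variable only and `θ(r) = r (w - r) / 2`.
(2) Sup-norm closeness `ε` of two convex potentials gives `∫ |T - S|² ≤ C ε` (finite differences).
(3) A coupling is discretised, the pairs at distance at most `κ = W₂^{2/3}` are moved first
horizontally and then vertically (cost `C κ^{1/2}` each by (1), (2)), the remaining pairs carry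
`W₁`-cost at most `W₂² / κ` and are handled by the `W₁^{1/4}` estimate.
-/

open MeasureTheory ENNReal
open scoped NNReal

namespace Vale.Agent.Results.P074.AAPlanarOneThird

open Vale.Agent.Lib.P074b

theorem result :
    IsGreatest {α : ℝ | Admissible 2 α} (1 / 3) ∧
    sSup {α : ℝ | Admissible 2 α} = 1 / 3 ∧
    ∀ d : ℕ, 2 ≤ d → Admissible d (1 / 4) ∧ ∀ α : ℝ, Admissible d α → α ≤ 1 / 3 := by
  have h3 : Admissible 2 (1 / 3) := Vale.Agent.Lib.P074t.admissible_third
  have hg : IsGreatest {α : ℝ | Admissible 2 α} (1 / 3) :=
    ⟨h3, fun α h => admissible_le le_rfl h⟩
  exact ⟨hg, hg.csSup_eq, fun d hd =>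
    ⟨Vale.Agent.Lib.P074q.admissible_quarter d, fun α h => admissible_le hd h⟩⟩

end Vale.Agent.Results.P074.AAPlanarOneThird
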